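import Mathlib

/-!
P013: a linear sieve for the large prime factors after an exact sieve by a primorial.
-/

namespace Vale.Agent.P013

open Finset

theorem count_coprime (a x M : ℕ) :
    ((Ico x (x + a * M)).filter (fun u => a.Coprime u)).card = a.totient * M := by
  induction M with
  | zero => simp
  | succ M ih =>
    have h1 : Ico x (x + a * (M + 1)) = Ico x (x + a * M) ∪ Ico (x + a * M) (x + a * M + a) := by
      rw [Finset.Ico_union_Ico_eq_Ico (by omega) (by omega)]
      congr 1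
      ring
    have h2 : Disjoint (Ico x (x + a * M)) (Ico (x + a * M) (x + a * M + a)) := by
      rw [Finset.disjoint_left]
      intro u hu hu2
      rw [Finset.mem_Ico] at hu hu2
      omega
    rw [h1, Finset.filter_union, Finset.card_union_of_disjoint (Finset.disjoint_filter_filter h2),
      ih, Nat.filter_coprime_Ico_eq_totient]
    ring

theorem count_mult (a x M p : ℕ) (ha : 0 < a) (hp : 0 < p) :
    ((((Ico x (x + a * M)).filter (fun u => a.Coprime u ∧ p ∣ u)).card : ℕ) : ℝ) ≤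
      a.totient * (M * (1 / (p : ℝ)) + 3) := by
  have h1 : ((Ico x (x + a * M)).filter (fun u => a.Coprime u ∧ p ∣ u)).card ≤
      ((Ico (x / p) (x / p + (a * M / p + 2))).filter (fun u => a.Coprime u)).card := by
    refine Finset.card_le_card_of_injOn (fun u => u / p) ?_ ?_
    · intro u hu
      rw [Finset.mem_coe, Finset.mem_filter, Finset.mem_Ico] at hu
      obtain ⟨⟨hu1, hu2⟩, hc, w, rfl⟩ := hu
      rw [Finset.mem_coe, Finset.mem_filter, Finset.mem_Ico]
      show (x / p ≤ p * w / p ∧ p * w / p < _) ∧ a.Coprime (p * w / p)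
      rw [Nat.mul_div_cancel_left w hp]
      refine ⟨⟨?_, ?_⟩, Nat.Coprime.coprime_mul_left_right hc⟩
      · exact Nat.div_le_of_le_mul hu1
      · have e1 := Nat.div_add_mod x p
        have e2 := Nat.div_add_mod (a * M) p
        have e3 := Nat.mod_lt x hp
        have e4 := Nat.mod_lt (a * M) hp
        have e5 : p * w < p * (x / p + (a * M / p + 2)) := by
          calc p * w < x + a * M := hu2
            _ < p * (x / p) + p * (a * M / p) + 2 * p := by omega
            _ = p * (x / p + (a * M / p + 2)) := by ring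
        exact Nat.lt_of_mul_lt_mul_left e5
    · intro u hu v hv huv
      rw [Finset.mem_coe, Finset.mem_filter] at hu hv
      obtain ⟨_, _, w, rfl⟩ := hu
      obtain ⟨_, _, w', rfl⟩ := hv
      have huv' : p * w / p = p * w' / p := huv
      rw [Nat.mul_div_cancel_left w hp, Nat.mul_div_cancel_left w' hp] at huv'
      rw [huv']
  have h2 := Nat.Ico_filter_coprime_le (x / p) (a * M / p + 2) ha.ne'
  have h3 : (((a * M / p + 2) / a + 1 : ℕ) : ℝ) ≤ M * (1 / (p : ℝ)) + 3 := by
    have haR : (1:ℝ) ≤ a := by exact_mod_cast ha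
    have hpR : (0:ℝ) < p := by exact_mod_cast hp
    have e1 : (((a * M / p + 2) / a : ℕ) : ℝ) ≤ ((a * M / p + 2 : ℕ) : ℝ) / a := Nat.cast_div_le
    have e2 : ((a * M / p : ℕ) : ℝ) ≤ ((a * M : ℕ) : ℝ) / p := Nat.cast_div_le
    have e3 : ((a * M / p + 2 : ℕ) : ℝ) / a ≤ (((a * M : ℕ) : ℝ) / p + 2) / a := by
      apply div_le_div_of_nonneg_right _ (by linarith)
      push_cast at e2 ⊢
      linarith
    have e4 : (((a * M : ℕ) : ℝ) / p + 2) / a = M * (1 / (p : ℝ)) + 2 / a := by
      push_cast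
      field_simp
    have e5 : (2:ℝ) / a ≤ 2 := by
      rw [div_le_iff₀ (by linarith)]
      linarith
    rw [Nat.cast_add, Nat.cast_one]
    linarith
  have h4 : ((((Ico x (x + a * M)).filter (fun u => a.Coprime u ∧ p ∣ u)).card : ℕ) : ℝ) ≤
      ((a.totient * ((a * M / p + 2) / a + 1) : ℕ) : ℝ) := by exact_mod_cast h1.trans h2
  refine h4.trans ?_
  rw [Nat.cast_mul]
  exact mul_le_mul_of_nonneg_left h3 (Nat.cast_nonneg _)

/-- main bound, natural starting point -/
theorem jac_nat (n y : ℕ) (hn : 0 < n) (σ : ℝ) (hσ : σ < 1)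
    (hs : ∑ p ∈ n.primeFactors.filter (fun p => y < p), 1 / (p : ℝ) ≤ σ) (x : ℕ) :
    ∃ i : ℕ, i < primorial y * (⌊3 * (n.primeFactors.card : ℝ) / (1 - σ)⌋₊ + 1) ∧
      (x + i).Coprime n := by
  classical
  set a := primorial y with ha
  have ha0 : 0 < a := primorial_pos y
  set k := n.primeFactors.card with hk
  set M := ⌊3 * (k : ℝ) / (1 - σ)⌋₊ + 1 with hM
  set S := n.primeFactors.filter (fun p => y < p) with hS
  set I := (Ico x (x + a * M)).filter (fun u => a.Coprime u) with hI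
  have hI1 : I.card = a.totient * M := count_coprime a x M
  -- if every element of `I` has a large common prime factor with `n`
  have hex : ∃ u ∈ I, ∀ p ∈ S, ¬ p ∣ u := by
    by_contra hcon
    push Not at hcon
    have hsub : I ⊆ S.biUnion
        (fun p => (Ico x (x + a * M)).filter (fun u => a.Coprime u ∧ p ∣ u)) := by
      intro u hu
      obtain ⟨p, hp, hpu⟩ := hcon u hu
      rw [Finset.mem_biUnion]
      rw [hI, Finset.mem_filter] at hu
      exact ⟨p, hp, Finset.mem_filter.2 ⟨hu.1, hu.2, hpu⟩⟩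
    have h1 : ((I.card : ℕ) : ℝ) ≤ ∑ p ∈ S, a.totient * (M * (1 / (p : ℝ)) + 3) := by
      have h2 := (Finset.card_le_card hsub).trans Finset.card_biUnion_le
      have h3 : ((I.card : ℕ) : ℝ) ≤ ∑ p ∈ S,
          ((((Ico x (x + a * M)).filter (fun u => a.Coprime u ∧ p ∣ u)).card : ℕ) : ℝ) := by
        exact_mod_cast h2
      refine h3.trans (Finset.sum_le_sum fun p hp => count_mult a x M p ha0 ?_)
      have := (Finset.mem_filter.1 hp).2
      omega
    have h2 : ∑ p ∈ S, (a.totient : ℝ) * (M * (1 / (p : ℝ)) + 3) =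
        a.totient * (M * (∑ p ∈ S, 1 / (p : ℝ)) + 3 * S.card) := by
      rw [← Finset.mul_sum, Finset.sum_add_distrib, ← Finset.mul_sum, Finset.sum_const,
        nsmul_eq_mul]
      ring
    have h3 : (S.card : ℝ) ≤ k := by
      exact_mod_cast Finset.card_le_card (Finset.filter_subset _ _)
    rw [h2, hI1] at h1
    push_cast at h1
    have h4 : (0:ℝ) < a.totient := by exact_mod_cast Nat.totient_pos.2 ha0
    have h5 := le_of_mul_le_mul_left h1 h4
    have h6 : (M:ℝ) * ∑ p ∈ S, 1 / (p : ℝ) ≤ M * σ :=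
      mul_le_mul_of_nonneg_left hs (Nat.cast_nonneg _)
    have h7 : 3 * (k : ℝ) / (1 - σ) < (M:ℝ) := by
      rw [hM]; push_cast; exact Nat.lt_floor_add_one _
    rw [div_lt_iff₀ (by linarith)] at h7
    linarith
  obtain ⟨u, hu, hup⟩ := hex
  rw [hI, Finset.mem_filter, Finset.mem_Ico] at hu
  obtain ⟨⟨hu1, hu2⟩, hc⟩ := hu
  refine ⟨u - x, by omega, ?_⟩
  have e1 : x + (u - x) = u := by omega
  rw [e1]
  refine Nat.Coprime.symm (Nat.Coprime.symm ?_)
  rw [Nat.coprime_iff_gcd_eq_one]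
  by_contra hg
  obtain ⟨q, hq, hqg⟩ := Nat.exists_prime_and_dvd hg
  have hqu : q ∣ u := hqg.trans (Nat.gcd_dvd_left _ _)
  have hqn : q ∣ n := hqg.trans (Nat.gcd_dvd_right _ _)
  rcases Nat.lt_or_ge y q with hyq | hyq
  · exact hup q (Finset.mem_filter.2 ⟨Nat.mem_primeFactors.2 ⟨hq, hqn, hn.ne'⟩, hyq⟩) hqu
  · have h1 : q ∣ a := hq.dvd_primorial_iff.2 hyq
    have h2 := Nat.dvd_gcd h1 hqu
    rw [hc] at h2
    exact hq.one_lt.ne' (Nat.dvd_one.1 h2)

/-- main bound, integer starting point -/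
theorem jac (n y : ℕ) (hn : 0 < n) (σ : ℝ) (hσ : σ < 1)
    (hs : ∑ p ∈ n.primeFactors.filter (fun p => y < p), 1 / (p : ℝ) ≤ σ) (x : ℤ) :
    ∃ i : ℕ, i < primorial y * (⌊3 * (n.primeFactors.card : ℝ) / (1 - σ)⌋₊ + 1) ∧
      IsCoprime (x + i) (n : ℤ) := by
  have h0 : 0 ≤ x + n * |x| := by
    have h1 : (1:ℤ) ≤ n := by exact_mod_cast hn
    have h2 := abs_nonneg x
    have h3 := neg_abs_le x
    nlinarith
  obtain ⟨i, hi, hc⟩ := jac_nat n y hn σ hσ hs (x + n * |x|).toNat
  refine ⟨i, hi, ?_⟩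
  have h1 : IsCoprime ((((x + n * |x|).toNat + i : ℕ) : ℤ)) (n : ℤ) :=
    Nat.isCoprime_iff_coprime.2 hc
  rw [Nat.cast_add, Int.toNat_of_nonneg h0] at h1
  have h2 : x + n * |x| + (i : ℤ) = (x + i) + n * |x| := by ring
  rw [h2] at h1
  exact (IsCoprime.add_mul_left_left_iff).1 h1

open Classical in
/-- sets of primes with convergent reciprocal sum -/
theorem jac_summable (S : Set ℕ)
    (hS : Summable (fun p : ℕ => if p ∈ S then 1 / (p : ℝ) else 0)) :
    ∃ C : ℕ, ∀ n : ℕ, 0 < n → (∀ p ∈ n.primeFactors, p ∈ S) → ∀ x : ℤ,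
      ∃ i : ℕ, i < C * (n.primeFactors.card + 1) ∧ IsCoprime (x + i) (n : ℤ) := by
  obtain ⟨s, hs⟩ := (summable_iff_vanishing_norm.1 hS) (1 / 2) (by norm_num)
  set y := s.sup id with hy
  refine ⟨6 * primorial y, fun n hn hp x => ?_⟩
  have h1 : ∑ p ∈ n.primeFactors.filter (fun p => y < p), 1 / (p : ℝ) ≤ 1 / 2 := by
    have h2 := hs (n.primeFactors.filter (fun p => y < p)) (by
      rw [Finset.disjoint_left]
      intro p hp hps
      have h3 := (Finset.mem_filter.1 hp).2
      have h4 : p ≤ y := Finset.le_sup (f := id) hps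
      omega)
    have h3 : ∑ p ∈ n.primeFactors.filter (fun p => y < p),
        (if p ∈ S then 1 / (p : ℝ) else 0) =
        ∑ p ∈ n.primeFactors.filter (fun p => y < p), 1 / (p : ℝ) := by
      refine Finset.sum_congr rfl fun p hp' => ?_
      rw [if_pos (hp p (Finset.mem_filter.1 hp').1)]
    rw [h3] at h2
    exact (le_abs_self _).trans h2.le
  obtain ⟨i, hi, hc⟩ := jac n y hn (1 / 2) (by norm_num) h1 x
  refine ⟨i, lt_of_lt_of_le hi ?_, hc⟩
  have h2 := primorial_pos y
  have h3 : ⌊3 * (n.primeFactors.card : ℝ) / (1 - 1 / 2)⌋₊ = 6 * n.primeFactors.card := by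
    have e : 3 * (n.primeFactors.card : ℝ) / (1 - 1 / 2) = ((6 * n.primeFactors.card : ℕ) : ℝ) := by
      push_cast; ring
    rw [e, Nat.floor_natCast]
  rw [h3]
  nlinarith

end Vale.Agent.P013
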